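import Vale.Agent.P147.Dir.Bridge
import Vale.Agent.P147.Dir.WalkFast
import Vale.Agent.P147.Dir.Regen
import Vale.Agent.P147.Dir.Sweep
import Vale.Agent.P147.Dir.Trials
import Vale.Agent.P147.Dir.MaxIneq
import Vale.Agent.P147.Dir.Symmetry
import Vale.Agent.P147.Planar.Velocity
import Vale.Agent.P147.Planar.Local
import Vale.Agent.P147.Planar.Segments

open MeasureTheory Filter
open scoped ENNReal Topology
open Vale.Agent.P147
open Vale.Agent.P147.Dir (Keeps act AE Coexist Speed Ray CoexistFast)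

namespace Vale.Agent.Results.P147.AsymptoticDirection

theorem result {d : ℕ} [NeZero d] (hd : 2 ≤ d) (μ : Measure (Step d → ℝ)) (hμ : Elliptic μ) :
    (∀ (n : ℕ) (ξ : ℕ → Step d), annealed μ {q | ∀ t ≤ n, walkPos q t = pos ξ t} =
      ∫⁻ ω, ∏ t ∈ Finset.range n, ENNReal.ofReal (ω (pos ξ t) (ξ t))
        ∂(Measure.infinitePi fun _ : Pos d => μ)) ∧
    (∀ l : Fin d → ℝ, l ≠ 0 → 0 < annealed μ (AE l) →
      ∃ v : Fin d → ℝ, ∑ i, l i * v i = 1 ∧ ∀ᵐ q ∂annealed μ, q ∈ AE l → Ray l v q) ∧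
    (∀ l : Fin d → ℝ, Coexist μ l →
      ∃ v : Fin d → ℝ, ∑ i, l i * v i = 1 ∧
        (∀ᵐ q ∂annealed μ, q ∈ AE l ∪ AE (-l) → Ray l v q) ∧
        ∀ l' : Fin d → ℝ, Coexist μ l' ↔ ∑ i, l' i * v i ≠ 0) ∧
    ((∀ i : Fin d, ¬ Coexist μ (Pi.single i 1)) → ∀ l, ¬ Coexist μ l) ∧
    (∀ G : Set (Equiv.Perm (Fin d) × (Fin d → Bool)), (∀ g ∈ G, Keeps μ g) →
      (∀ v : Fin d → ℝ, (∀ g ∈ G, act g v = v ∨ act g v = -v) → v = 0) →
      ∀ l, ¬ Coexist μ l) ∧
    ((∀ g, Keeps μ g) → ∀ l : Fin d → ℝ, l ≠ 0 → annealed μ (AE l) = 0) ∧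
    (3 ≤ d → (∀ l, ¬ CoexistFast μ l) ∧
      ∀ v v' : Fin d → ℝ, v ≠ 0 → v' ≠ 0 →
        0 < annealed μ (Speed v) → 0 < annealed μ (Speed v') → v = v') := by
  have hdir : ∀ l, Dir.DirectionStmt μ l :=
    Dir.direction_of (Dir.regen μ) (fun _ _ => Dir.sweep_mean Dir.trial Dir.maxIneq)
  have havoid : Planar.AvoidStmt := Planar.avoid Planar.localStmt
  refine ⟨Dir.walk_law hμ, Dir.direction_named hμ hdir, Dir.two_rays_named hμ hdir, fun h l => ?_,
    fun G hG hfix l => ?_, fun hall l _ => ?_, fun h3 =>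
      ⟨fun l => Planar.not_both_fast_named havoid hdir hμ h3 l,
        fun v v' hv hv' => Planar.velocity_unique3 havoid hdir hμ h3 hv hv'⟩⟩
  · rw [Dir.coexist_iff]
    exact Dir.coordinates hμ hdir (fun i => by rw [← Dir.coexist_iff]; exact h i) l
  · rw [Dir.coexist_iff]
    intro hf
    obtain ⟨v, hv, -, hiff⟩ := Dir.two_rays hμ hdir hf.1 hf.2
    have hv0 := hfix v fun g hg => Dir.pull_fixed hμ (hG g hg) hiff
    simpa [hv0] using hv.1
  · rw [Dir.annealed_ae]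
    by_contra hne
    have hg := Dir.nu_escape_pull hμ (hall (1, fun _ => true)) l
    have hneg : Dir.pull (1, fun _ => true) l = -l := by funext i; simp [Dir.pull]
    rw [hneg] at hg
    obtain ⟨v, hv, -, hiff⟩ := Dir.two_rays hμ hdir (pos_iff_ne_zero.mpr hne)
      (pos_iff_ne_zero.mpr (hg ▸ hne))
    have hv0 := Dir.isotropic_zero hd fun g => Dir.pull_fixed hμ (hall g) hiff
    simpa [hv0] using hv.1

end Vale.Agent.Results.P147.AsymptoticDirection
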