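import Vale.Agent.P147.Dir.Regen
import Vale.Agent.P147.Dir.Sweep
import Vale.Agent.P147.Dir.Trials
import Vale.Agent.P147.Dir.MaxIneq
import Vale.Agent.P147.Dir.Symmetry
import Vale.Agent.P147.Flux.Law
import Vale.Agent.P147.Window.SlowOne
import Vale.Agent.P147.Window.Tight
import Vale.Agent.P147.Window.Drift

open MeasureTheory Filter
open scoped ENNReal Topology
open Vale.Agent.P147
open Vale.Agent.P147.Dir (AE Speed proj)
open Vale.Agent.P147.Window (Boxed Dips)

namespace Vale.Agent.Results.P147.FastSideForcesZeroOne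

/-- In dimension at least three the walk has a deterministic velocity, and if it is not zero every
escape event has probability zero or one, decided by the sign of the velocity along the direction.
A direction in which the walk grows like `n ^ β`, `β ≥ 4 / (d + 1)`, with positive probability is
escaped to almost surely. The law holds in every direction if, for one orientation of every axis,
the site of the first visit to a far level is tight at diffusive scale, or descents before escapes
are unlikely enough, or a balance of the two holds; and, in dimension at least seven, if some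
nonzero linear form never loses in mean at any site. -/
theorem result {d : ℕ} [NeZero d] (hd : 3 ≤ d) (μ : Measure (Step d → ℝ)) (hμ : Elliptic μ) :
    (∀ (n : ℕ) (ξ : ℕ → Step d), annealed μ {q | ∀ t ≤ n, walkPos q t = pos ξ t} =
      ∫⁻ ω, ∏ t ∈ Finset.range n, ENNReal.ofReal (ω (pos ξ t) (ξ t))
        ∂(Measure.infinitePi fun _ : Pos d => μ)) ∧
    (∃ v : Fin d → ℝ, annealed μ (Speed v) = 1 ∧
      (v ≠ 0 → ∀ l : Fin d → ℝ,
        annealed μ (AE l) = if 0 < ∑ i, l i * v i then 1 else 0)) ∧
    (∀ (l : Fin d → ℝ) (β : ℝ), 4 ≤ β * ((d : ℝ) + 1) →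
      0 < annealed μ {q | ∃ c > (0 : ℝ), ∀ᶠ n : ℕ in atTop, c * (n : ℝ) ^ β ≤ proj l q n} →
        annealed μ (AE l) = 1) ∧
    ((∀ i : Fin d, ∃ b : Bool, Boxed μ (i, b) (1 / 2) ∨ Dips μ (i, b) 1 ∨
        ∃ a ≥ 0, Boxed μ (i, b) a ∧ Dips μ (i, b) a) →
      ∀ l : Fin d → ℝ, annealed μ (AE l) = 0 ∨ annealed μ (AE l) = 1) ∧
    (7 ≤ d → ∀ u : Fin d → ℝ, u ≠ 0 →
      (∀ᵐ p ∂μ, 0 ≤ ∑ e, p e * (∑ i, u i * (vec e i : ℝ))) →
      ∀ l : Fin d → ℝ, annealed μ (AE l) = 0 ∨ annealed μ (AE l) = 1) :=
  ⟨Dir.walk_law hμ, Flux.velocity_law_named hμ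
    (Dir.direction_of (Dir.regen μ) (fun _ _ => Dir.sweep_mean Dir.trial Dir.maxIneq))
    fun _ hX => Window.side_one hμ hd hX, fun _ _ hβ h => Window.slow_one hμ (by omega)
      (Dir.direction_of (Dir.regen μ) (fun _ _ => Dir.sweep_mean Dir.trial Dir.maxIneq)) hβ h,
    Window.tight_zero_one hμ (by omega)
      (Dir.direction_of (Dir.regen μ) (fun _ _ => Dir.sweep_mean Dir.trial Dir.maxIneq)),
    fun h7 _ hu0 hu => Window.oneWay_zero_one hμ h7
      (Dir.direction_of (Dir.regen μ) (fun _ _ => Dir.sweep_mean Dir.trial Dir.maxIneq)) hu0 hu⟩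

end Vale.Agent.Results.P147.FastSideForcesZeroOne
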